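import Vale.Agent.P170.H243.Window

/-!
# Assembly: threshold, scaling window `O(√n)`, one-sided rate
-/

namespace Vale.Agent.P170

open Finset Filter Topology

/-- choice of the two densities: `m` below, by `s √n` -/
theorem w_sqrt_facts (n : ℕ) (hn : 1 ≤ n) :
    0 < Real.sqrt n ∧ Real.sqrt n * Real.sqrt n = n ∧ (0 : ℝ) < n ∧ 1 ≤ Real.sqrt n := by
  have h1 : (1 : ℝ) ≤ n := by exact_mod_cast hn
  refine ⟨Real.sqrt_pos.mpr (by linarith), Real.mul_self_sqrt (by linarith), by linarith, ?_⟩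
  rw [← Real.sqrt_one]
  exact Real.sqrt_le_sqrt h1

/-- comparison at `b = (m - s √n)/n` -/
theorem w_cmp_above (j n m : ℕ) (hn : j + 1 ≤ n) {C₀ s : ℝ} (hC : 1 ≤ C₀)
    (hs : s = 8 * (1 + C₀)) (hm : (m : ℝ) ≤ C₀ * n) (hb : 0 ≤ ((m : ℝ) - s * Real.sqrt n) / n) :
    satProb (j + 1) n m ≤ 2 * Real.exp (C₀ * ((j + 1) * j))
      * (1 - U j n (((m : ℝ) - s * Real.sqrt n) / n)) := by
  obtain ⟨hq, hqq, hn0, -⟩ := w_sqrt_facts n (by omega)
  set b : ℝ := ((m : ℝ) - s * Real.sqrt n) / n with hbdef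
  have hbn : b * n = m - s * Real.sqrt n := by rw [hbdef]; field_simp
  have hmu := mu_le j n (by omega) hb
  have hs0 : 0 < s := by rw [hs]; linarith
  have hmu0 : 0 ≤ mu j n (rt j n b) := by
    have := rt_nonneg_bd160 j n hb
    unfold mu; positivity
  have hlt : s * Real.sqrt n ≤ (m : ℝ) - mu j n (rt j n b) := by linarith
  have hbC : b ≤ C₀ := by
    rw [hbdef, div_le_iff₀ hn0]
    nlinarith
  have h1 := w_above j n hn hb m (by nlinarith) (by
    have h2 : (s * Real.sqrt n) ^ 2 ≤ ((m : ℝ) - mu j n (rt j n b)) ^ 2 :=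
      pow_le_pow_left₀ (by positivity) hlt 2
    have h3 : (s * Real.sqrt n) ^ 2 = s ^ 2 * n := by rw [mul_pow, Real.sq_sqrt hn0.le]
    have h4 : 2 * mu j n (rt j n b) ≤ 2 * (C₀ * n) := by nlinarith
    have h5 : 2 * C₀ ≤ s ^ 2 := by rw [hs]; nlinarith
    nlinarith)
  refine h1.trans ?_
  have h6 : Real.exp (b * ((j + 1) * j)) ≤ Real.exp (C₀ * ((j + 1) * j)) :=
    Real.exp_le_exp.2 (mul_le_mul_of_nonneg_right hbC (by positivity))
  have h7 : 0 ≤ 1 - U j n b := by linarith [U_le_one j n hb]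
  nlinarith

/-- comparison at `a = (m + s √n)/n` -/
theorem w_cmp_below (j n m : ℕ) (hn : j + 1 ≤ n) {C₀ s : ℝ} (hC : 1 ≤ C₀)
    (hs : s = 8 * (1 + C₀)) (ha : (m : ℝ) + s * Real.sqrt n ≤ C₀ * n)
    (hlarge : 2 * (C₀ * ((j + 1) * j)) ≤ s * Real.sqrt n) :
    1 - satProb (j + 1) n m ≤ 2 * U j n (((m : ℝ) + s * Real.sqrt n) / n) := by
  obtain ⟨hq, hqq, hn0, -⟩ := w_sqrt_facts n (by omega)
  set a : ℝ := ((m : ℝ) + s * Real.sqrt n) / n with hadef
  have hs0 : 0 < s := by rw [hs]; linarith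
  have ha0 : 0 ≤ a := by rw [hadef]; positivity
  have han : a * n = m + s * Real.sqrt n := by rw [hadef]; field_simp
  have haC : a ≤ C₀ := by rw [hadef, div_le_iff₀ hn0]; exact ha
  have hmu := mu_le j n (by omega) ha0
  have hmu' := le_mu j n hn ha0
  have h1 : a * ((j + 1) * j) ≤ C₀ * ((j + 1) * j) :=
    mul_le_mul_of_nonneg_right haC (by positivity)
  have h2 : s * Real.sqrt n / 2 ≤ mu j n (rt j n a) - m := by linarith
  have h3 : 0 < s * Real.sqrt n / 2 := by positivity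
  refine w_below j n ha0 m (by linarith) ?_
  have h4 : (s * Real.sqrt n / 2) ^ 2 ≤ (mu j n (rt j n a) - m) ^ 2 :=
    pow_le_pow_left₀ h3.le h2 2
  have h5 : (s * Real.sqrt n / 2) ^ 2 = s ^ 2 * n / 4 := by
    rw [div_pow, mul_pow, Real.sq_sqrt hn0.le]; norm_num
  have h6 : 2 * mu j n (rt j n a) ≤ 2 * (C₀ * n) := by nlinarith
  have h7 : 8 * C₀ ≤ s ^ 2 := by rw [hs]; nlinarith
  nlinarith

/-- the window, middle range -/
theorem w_window_mid (j n m m' : ℕ) (hn : j + 1 ≤ n) {C₀ s q E A : ℝ} (hC : 1 ≤ C₀)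
    (hs : s = 8 * (1 + C₀)) (hq : q = C₀ * ((j + 1) * j)) (hE : E = Real.exp q)
    (H2 : ∀ n : ℕ, 1 ≤ n → ∀ a b : ℝ, 0 ≤ a → a < b → b ≤ C₀ →
      (b - a) * U j n a * (1 - U j n b) ≤ A / Real.sqrt n)
    (hbig : (m' : ℝ) ≤ C₀ * n) (hlarge : 2 * q ≤ s * Real.sqrt n)
    (hfar : 2 * s * Real.sqrt n < (m' : ℝ) - m) :
    ((m' : ℝ) - m) * ((1 - satProb (j + 1) n m) * satProb (j + 1) n m')
      ≤ 4 * E * A * Real.sqrt n + 2 * s * Real.sqrt n := by
  obtain ⟨hr, hrr, hn0, hr1⟩ := w_sqrt_facts n (by omega)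
  have hs0 : 0 < s := by rw [hs]; linarith
  have hE0 : 0 < E := by rw [hE]; exact Real.exp_pos _
  have hP0 := satProb_nonneg (j + 1) n m
  have hP1 := satProb_le_one (j + 1) n m
  have hP0' := satProb_nonneg (j + 1) n m'
  have hP1' := satProb_le_one (j + 1) n m'
  have hsr : 0 < s * Real.sqrt n := mul_pos hs0 hr
  have h1 : 0 ≤ ((m' : ℝ) - s * Real.sqrt n) / n := by
    have : (0 : ℝ) ≤ m := Nat.cast_nonneg m
    exact div_nonneg (by nlinarith only [hfar, hsr, this]) hn0.le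
  have h1 := w_cmp_above j n m' hn hC hs hbig h1
  have h2 := w_cmp_below j n m hn hC hs (by linarith only [hfar, hsr, hbig]) (by
    rw [← hq]; exact hlarge)
  rw [← hq, ← hE] at h1
  set P := satProb (j + 1) n m
  set P' := satProb (j + 1) n m'
  have hprod : (1 - P) * P' ≤ 1 := by nlinarith only [hP0, hP1, hP0', hP1']
  have ha0 : 0 ≤ ((m : ℝ) + s * Real.sqrt n) / n := by positivity
  have hab : ((m : ℝ) + s * Real.sqrt n) / n < ((m' : ℝ) - s * Real.sqrt n) / n :=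
    div_lt_div_of_pos_right (by linarith only [hfar]) hn0
  have hbC : ((m' : ℝ) - s * Real.sqrt n) / n ≤ C₀ := by
    rw [div_le_iff₀ hn0]
    linarith only [hbig, hsr]
  have h3 := H2 n (by omega) _ _ ha0 hab hbC
  have hUa := U_nonneg j n ha0
  have hUb : 0 ≤ 1 - U j n (((m' : ℝ) - s * Real.sqrt n) / n) := by
    linarith only [U_le_one j n (ha0.trans hab.le)]
  have h5 : (((m' : ℝ) - s * Real.sqrt n) / n - ((m : ℝ) + s * Real.sqrt n) / n) * n
      = (m' : ℝ) - m - 2 * s * Real.sqrt n := by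
    field_simp; ring
  set a : ℝ := ((m : ℝ) + s * Real.sqrt n) / n
  set b : ℝ := ((m' : ℝ) - s * Real.sqrt n) / n
  have h4 : (1 - P) * P' ≤ (2 * U j n a) * (2 * E * (1 - U j n b)) :=
    mul_le_mul h2 h1 hP0' (by positivity)
  have h7 : 0 ≤ (m' : ℝ) - m - 2 * s * Real.sqrt n := by linarith only [hfar]
  have h6 : ((m' : ℝ) - m - 2 * s * Real.sqrt n) * ((1 - P) * P')
      ≤ 4 * E * A * Real.sqrt n := by
    calc ((m' : ℝ) - m - 2 * s * Real.sqrt n) * ((1 - P) * P')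
        ≤ ((m' : ℝ) - m - 2 * s * Real.sqrt n)
          * ((2 * U j n a) * (2 * E * (1 - U j n b))) :=
          mul_le_mul_of_nonneg_left h4 h7
      _ = 4 * E * n * ((b - a) * U j n a * (1 - U j n b)) := by rw [← h5]; ring
      _ ≤ 4 * E * n * (A / Real.sqrt n) :=
          mul_le_mul_of_nonneg_left h3 (by positivity)
      _ = 4 * E * A * Real.sqrt n := by
          nth_rewrite 1 [← hrr]
          field_simp
  have h9 : 2 * s * Real.sqrt n * ((1 - P) * P') ≤ 2 * s * Real.sqrt n := by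
    have : 0 ≤ 2 * s * Real.sqrt n := by positivity
    nlinarith only [this, hprod]
  nlinarith only [h6, h9]

/-- the one-sided rate, middle range -/
theorem w_rate_mid (j n m : ℕ) (hn : j + 1 ≤ n) {C₀ s q E A α : ℝ} (hC : 1 ≤ C₀) (hα0 : 0 ≤ α)
    (hs : s = 8 * (1 + C₀)) (hq : q = C₀ * ((j + 1) * j)) (hE : E = Real.exp q)
    (hone : ∀ b, 0 ≤ b → b ≤ C₀ → (b - α) * (1 - U j n b) * Real.sqrt n ≤ 42 * A)
    (hbig : (m : ℝ) ≤ C₀ * n) (hgt : α * n < (m : ℝ) - s * Real.sqrt n) :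
    ((m : ℝ) - α * n) * satProb (j + 1) n m ≤ 84 * E * A * Real.sqrt n + s * Real.sqrt n := by
  obtain ⟨hr, hrr, hn0, hr1⟩ := w_sqrt_facts n (by omega)
  have hs0 : 0 < s := by rw [hs]; linarith
  have hE0 : 0 < E := by rw [hE]; exact Real.exp_pos _
  have hP0 := satProb_nonneg (j + 1) n m
  have hP1 := satProb_le_one (j + 1) n m
  have hαn : 0 ≤ α * n := by positivity
  have hb0 : 0 ≤ ((m : ℝ) - s * Real.sqrt n) / n := div_nonneg (by linarith) hn0.le
  have hsr : 0 < s * Real.sqrt n := mul_pos hs0 hr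
  have hbC : ((m : ℝ) - s * Real.sqrt n) / n ≤ C₀ := by
    rw [div_le_iff₀ hn0]
    linarith only [hbig, hsr]
  have h1 := w_cmp_above j n m hn hC hs hbig hb0
  rw [← hq, ← hE] at h1
  have h2 := hone _ hb0 hbC
  have h3 : (((m : ℝ) - s * Real.sqrt n) / n - α) * n = (m : ℝ) - s * Real.sqrt n - α * n := by
    field_simp
  set P := satProb (j + 1) n m
  set b : ℝ := ((m : ℝ) - s * Real.sqrt n) / n
  have h5 : 0 ≤ (m : ℝ) - s * Real.sqrt n - α * n := by linarith only [hgt]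
  have h4 : ((m : ℝ) - s * Real.sqrt n - α * n) * P ≤ 84 * E * A * Real.sqrt n := by
    calc ((m : ℝ) - s * Real.sqrt n - α * n) * P
        ≤ ((m : ℝ) - s * Real.sqrt n - α * n) * (2 * E * (1 - U j n b)) :=
          mul_le_mul_of_nonneg_left h1 h5
      _ = 2 * E * Real.sqrt n * ((b - α) * (1 - U j n b) * Real.sqrt n) := by
          rw [← h3]
          nth_rewrite 1 [← hrr]
          ring
      _ ≤ 2 * E * Real.sqrt n * (42 * A) :=
          mul_le_mul_of_nonneg_left h2 (by positivity)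
      _ = _ := by ring
  have h8 : s * Real.sqrt n * P ≤ s * Real.sqrt n := by
    nlinarith only [hsr, hP1]
  have h9 : ((m : ℝ) - α * n) * P
      = ((m : ℝ) - s * Real.sqrt n - α * n) * P + s * Real.sqrt n * P := by ring
  rw [h9]
  linarith only [h4, h8]

/-- the threshold with the data of the rate model -/
theorem w_model (j : ℕ) (hj : 2 ≤ j) (C₀ : ℝ) (hC : C₀ = 2 ^ (j + 2)) :
    ∃ α A : ℝ, 0 < A ∧ 0 ≤ α ∧ IsLimitingThreshold (j + 1) α ∧
      (∀ n : ℕ, 1 ≤ n → ∀ a b : ℝ, 0 ≤ a → a < b → b ≤ C₀ →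
        (b - a) * U j n a * (1 - U j n b) ≤ A / Real.sqrt n) ∧
      (∀ n : ℕ, 1 ≤ n → ∀ b : ℝ, 0 ≤ b → b ≤ C₀ →
        (b - α) * (1 - U j n b) * Real.sqrt n ≤ 42 * A) := by
  have hC1 : 1 ≤ C₀ := by rw [hC]; exact one_le_pow₀ (by norm_num)
  have hC0 : 0 < C₀ := by linarith
  obtain ⟨A, hA, H2⟩ := window_bound j hj C₀ hC1
  have H4 : Tendsto (fun n => U j n C₀) atTop (𝓝 1) := by
    have h1 : ∀ᶠ n : ℕ in atTop, 1 - (2 * Real.exp (-1)) ^ n ≤ U j n C₀ := by
      filter_upwards [eventually_ge_atTop 1] with n hn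
      have h0 := one_sub_U_le j n hn (c := 2 ^ (j + 1)) (by positivity)
      have h2 : (2:ℝ) ^ (j + 1) * n / 2 ^ (j + 1) = n := by field_simp
      rw [h2] at h0
      have h3 : (2:ℝ) ^ n * Real.exp (-(n:ℝ)) = (2 * Real.exp (-1)) ^ n := by
        rw [mul_pow, ← Real.exp_nat_mul]
        congr 2
        ring
      rw [h3] at h0
      have h4 : U j n (2 ^ (j + 1)) ≤ U j n C₀ := U_mono j n (by positivity) (by
        rw [hC]; exact pow_le_pow_right₀ (by norm_num) (by omega))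
      linarith
    have h2 : ∀ᶠ n : ℕ in atTop, U j n C₀ ≤ 1 :=
      Eventually.of_forall (fun n => U_le_one j n hC0.le)
    have h3 : Tendsto (fun n : ℕ => 1 - (2 * Real.exp (-1)) ^ n) atTop (𝓝 (1 - 0)) := by
      apply Tendsto.const_sub
      apply tendsto_pow_atTop_nhds_zero_of_lt_one
      · positivity
      · have : (2:ℝ) < Real.exp 1 := lt_trans (by norm_num) Real.exp_one_gt_d9
        rw [Real.exp_neg]
        rw [← div_eq_mul_inv, div_lt_one (Real.exp_pos 1)]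
        exact this
    rw [sub_zero] at h3
    exact tendsto_of_tendsto_of_tendsto_of_le_of_le' h3 tendsto_const_nhds h1 h2
  obtain ⟨α, hα0, hlow, hhigh⟩ := exists_threshold (U j) C₀ A hC0
    (fun n c hc => U_nonneg j n hc) (fun n c hc => U_le_one j n hc)
    (fun n a b ha hab => U_mono j n ha hab)
    (fun n₁ n₂ c h₁ h₂ hc => superadd j n₁ n₂ h₁ h₂ hc) H2
    (fun n c hc => le_one_sub_U j n hc) H4
  have hhigh' : ∀ c : ℝ, α < c → Tendsto (fun n : ℕ => satProb (j + 1) n ⌊c * n⌋₊) atTop (𝓝 0) := by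
    intro c hc
    have h1 : α < (α + c) / 2 := by linarith only [hc]
    exact transfer_unsat j (c' := (α + c) / 2) (by linarith only [hα0, hc]) (by linarith only [hc]) (hhigh _ h1)
  refine ⟨α, A, hA, hα0, ?_, H2, ?_⟩
  · refine ⟨?_, ?_, hhigh'⟩
    · by_contra hneg
      have hα : α = 0 := le_antisymm (not_lt.mp hneg) hα0
      obtain ⟨c₀, hc₀, hlim⟩ := satProb_small (j + 1) (by omega)
      have h0 := hhigh' c₀ (by rw [hα]; exact hc₀)
      have := tendsto_nhds_unique hlim h0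
      norm_num at this
    · intro c hc hcα
      have h1 : (c + α) / 2 < α := by linarith only [hcα]
      exact transfer_sat j (c' := (c + α) / 2) hc (by linarith only [hcα]) (hlow _ (by linarith only [hc, hcα]) h1)
  · intro n hn b hb0 hbC
    exact w_onesided (U j) C₀ A hA (fun n c hc => U_nonneg j n hc)
      (fun n c hc => U_le_one j n hc) (fun n a b ha hab => U_mono j n ha hab)
      (fun n₁ n₂ c h₁ h₂ hc => superadd j n₁ n₂ h₁ h₂ hc) H2 hα0 hhigh hn hb0 hbC

/-- a product of probabilities -/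
theorem w_prod_le {x P P' : ℝ} (hx : 0 ≤ x) (h0 : 0 ≤ P) (h0' : 0 ≤ P') :
    x * ((1 - P) * P') ≤ x * P' := by
  have : (1 - P) * P' ≤ P' := by nlinarith only [h0, h0']
  exact mul_le_mul_of_nonneg_left this hx

/-- **threshold, scaling window, one-sided rate** -/
theorem w_main (k : ℕ) (hk : 3 ≤ k) : ∃ α A : ℝ, 0 < A ∧ IsLimitingThreshold k α ∧
    (∀ n m m' : ℕ, k ≤ n → m ≤ m' →
      ((m' : ℝ) - m) * ((1 - satProb k n m) * satProb k n m') ≤ A * Real.sqrt n) ∧
    (∀ n m : ℕ, k ≤ n → ((m : ℝ) - α * n) * satProb k n m ≤ A * Real.sqrt n) := by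
  obtain ⟨j, rfl⟩ : ∃ j, k = j + 1 := ⟨k - 1, by omega⟩
  have hj : 2 ≤ j := by omega
  obtain ⟨C₀, hC₀⟩ : ∃ C₀ : ℝ, C₀ = 2 ^ (j + 2) := ⟨_, rfl⟩
  obtain ⟨α, A, hA, hα0, hthr, H2, hone⟩ := w_model j hj C₀ hC₀
  have hC1 : 1 ≤ C₀ := by rw [hC₀]; exact one_le_pow₀ (by norm_num)
  have hC0 : 0 < C₀ := by linarith
  obtain ⟨s, hs⟩ : ∃ s : ℝ, s = 8 * (1 + C₀) := ⟨_, rfl⟩
  obtain ⟨q, hq⟩ : ∃ q : ℝ, q = C₀ * ((j + 1) * j) := ⟨_, rfl⟩
  obtain ⟨E, hE⟩ : ∃ E : ℝ, E = Real.exp q := ⟨_, rfl⟩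
  have hs0 : 0 < s := by rw [hs]; linarith
  have hq0 : 0 ≤ q := by rw [hq]; positivity
  have hE0 : 0 < E := by rw [hE]; exact Real.exp_pos _
  have hEA : 0 < E * A := mul_pos hE0 hA
  have hc3 : 0 ≤ C₀ * (2 * q / s) := by positivity
  refine ⟨α, C₀ + 84 * (E * A) + 2 * s + C₀ * (2 * q / s), by linarith, hthr, ?_, ?_⟩
  · -- the window
    intro n m m' hn hmm
    obtain ⟨hr, hrr, hn0, hr1⟩ := w_sqrt_facts n (by omega)
    have hmr : (m : ℝ) ≤ m' := by exact_mod_cast hmm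
    have hm0 : (0 : ℝ) ≤ m := Nat.cast_nonneg m
    have hP0 := satProb_nonneg (j + 1) n m
    have hP1 := satProb_le_one (j + 1) n m
    have hP0' := satProb_nonneg (j + 1) n m'
    have hP1' := satProb_le_one (j + 1) n m'
    have h1 : ((m' : ℝ) - m) * ((1 - satProb (j + 1) n m) * satProb (j + 1) n m')
        ≤ ((m' : ℝ) - m) * satProb (j + 1) n m' :=
      w_prod_le (by linarith only [hmr]) hP0 hP0'
    have h1' : ((m' : ℝ) - m) * satProb (j + 1) n m' ≤ (m' : ℝ) - m := by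
      nlinarith only [hmr, hP1']
    have e1 : 0 ≤ C₀ * Real.sqrt n := by positivity
    have e2 : 0 ≤ (E * A) * Real.sqrt n := by positivity
    have e3 : 0 ≤ s * Real.sqrt n := by positivity
    have e4 : 0 ≤ C₀ * (2 * q / s) * Real.sqrt n := by positivity
    rcases lt_or_ge (C₀ * n) (m' : ℝ) with hbig | hbig
    · have h2 := w_far j n m' hn (by rw [← hC₀]; exact hbig)
      rw [← hC₀] at h2
      have h3 : ((m' : ℝ) - m) * satProb (j + 1) n m' ≤ m' * satProb (j + 1) n m' :=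
        mul_le_mul_of_nonneg_right (by linarith only [hm0]) hP0'
      have h4 : C₀ ≤ C₀ * Real.sqrt n := by nlinarith only [hr1, hC0]
      nlinarith only [h1, h2, h3, h4, e1, e2, e3, e4]
    · rcases lt_or_ge (s * Real.sqrt n) (2 * q) with hsmall | hlarge
      · have h2 : Real.sqrt n ≤ 2 * q / s := by
          rw [le_div_iff₀ hs0]; linarith only [hsmall]
        have h3 : (m' : ℝ) - m ≤ C₀ * (2 * q / s) * Real.sqrt n := by
          calc (m' : ℝ) - m ≤ C₀ * n := by linarith only [hbig, hm0]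
            _ = C₀ * (Real.sqrt n * Real.sqrt n) := by rw [hrr]
            _ ≤ C₀ * ((2 * q / s) * Real.sqrt n) :=
                mul_le_mul_of_nonneg_left (mul_le_mul_of_nonneg_right h2 hr.le) hC0.le
            _ = _ := by ring
        nlinarith only [h1, h1', h3, e1, e2, e3]
      · rcases le_or_gt ((m' : ℝ) - m) (2 * s * Real.sqrt n) with hclose | hfar
        · nlinarith only [h1, h1', hclose, e1, e2, e4]
        · have h2 := w_window_mid j n m m' hn hC1 hs hq hE H2 hbig hlarge hfar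
          nlinarith only [h2, e1, e2, e4]
  · -- the one-sided rate
    intro n m hn
    obtain ⟨hr, hrr, hn0, hr1⟩ := w_sqrt_facts n (by omega)
    have hP0 := satProb_nonneg (j + 1) n m
    have hP1 := satProb_le_one (j + 1) n m
    have hαn : 0 ≤ α * n := by positivity
    have e1 : 0 ≤ C₀ * Real.sqrt n := by positivity
    have e2 : 0 ≤ (E * A) * Real.sqrt n := by positivity
    have e3 : 0 ≤ s * Real.sqrt n := by positivity
    have e4 : 0 ≤ C₀ * (2 * q / s) * Real.sqrt n := by positivity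
    rcases lt_or_ge (C₀ * n) (m : ℝ) with hbig | hbig
    · have h2 := w_far j n m hn (by rw [← hC₀]; exact hbig)
      rw [← hC₀] at h2
      have h3 : ((m : ℝ) - α * n) * satProb (j + 1) n m ≤ m * satProb (j + 1) n m :=
        mul_le_mul_of_nonneg_right (by linarith only [hαn]) hP0
      have h4 : C₀ ≤ C₀ * Real.sqrt n := by nlinarith only [hr1, hC0]
      nlinarith only [h2, h3, h4, e1, e2, e3, e4]
    · rcases le_or_gt ((m : ℝ) - s * Real.sqrt n) (α * n) with hle | hgt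
      · have h3 : ((m : ℝ) - α * n) * satProb (j + 1) n m ≤ s * Real.sqrt n := by
          rcases le_or_gt ((m : ℝ) - α * n) 0 with h | h
          · nlinarith only [h, hP0, e3]
          · nlinarith only [h, hP1, hle]
        nlinarith only [h3, e1, e2, e3, e4]
      · have h2 := w_rate_mid j n m hn hC1 hα0 hs hq hE (hone n (by omega)) hbig hgt
        nlinarith only [h2, e1, e2, e3, e4]

end Vale.Agent.P170
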