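import Vale.Agent.P170.Bdl.B1

/-!
# Chebyshev bounds for the Poisson weights and the transfer at the scale `√n`
-/

namespace Vale.Agent.P170

open Finset Filter Topology

theorem w_hasSum_one (μ : ℝ) : HasSum (fun m : ℕ => (m : ℝ) * poi μ m) μ := by
  have h : HasSum (fun m : ℕ => ((m + 1 : ℕ) : ℝ) * poi μ (m + 1)) μ := by
    have h1 := (hasSum_poi μ).mul_left μ
    rw [mul_one] at h1
    have h2 : (fun m : ℕ => ((m + 1 : ℕ) : ℝ) * poi μ (m + 1)) = fun m => μ * poi μ m := by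
      funext m
      rw [← poi_succ μ m]
      push_cast
      ring
    rw [h2]
    exact h1
  have h3 := (hasSum_nat_add_iff (f := fun m : ℕ => (m : ℝ) * poi μ m) 1).1 h
  simpa using h3

theorem w_hasSum_two (μ : ℝ) : HasSum (fun m : ℕ => (m : ℝ) * ((m : ℝ) - 1) * poi μ m) (μ ^ 2) := by
  have h : HasSum (fun m : ℕ => ((m + 1 : ℕ) : ℝ) * (((m + 1 : ℕ) : ℝ) - 1) * poi μ (m + 1))
      (μ ^ 2) := by
    have h1 := (w_hasSum_one μ).mul_left μ
    have h2 : (fun m : ℕ => ((m + 1 : ℕ) : ℝ) * (((m + 1 : ℕ) : ℝ) - 1) * poi μ (m + 1))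
        = fun m : ℕ => μ * ((m : ℝ) * poi μ m) := by
      funext m
      have := poi_succ μ m
      push_cast
      linear_combination (m : ℝ) * this
    rw [h2, pow_two]
    exact h1
  have h3 := (hasSum_nat_add_iff (f := fun m : ℕ => (m : ℝ) * ((m : ℝ) - 1) * poi μ m) 1).1 h
  simpa using h3

/-- the variance of the Poisson distribution -/
theorem w_hasSum_var (μ : ℝ) : HasSum (fun m : ℕ => ((m : ℝ) - μ) ^ 2 * poi μ m) μ := by
  have h1 := w_hasSum_one μ
  have h2 := w_hasSum_two μ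
  have h3 := hasSum_poi μ
  have h4 := (h2.add (h1.mul_left (1 - 2 * μ))).add (h3.mul_left (μ ^ 2))
  have h5 : (fun m : ℕ => ((m : ℝ) - μ) ^ 2 * poi μ m)
      = fun m : ℕ => ((m : ℝ) * ((m : ℝ) - 1) * poi μ m + (1 - 2 * μ) * ((m : ℝ) * poi μ m))
        + μ ^ 2 * poi μ m := by
    funext m
    ring
  rw [h5]
  convert h4 using 1
  ring

/-- Chebyshev, lower tail -/
theorem w_poi_lower {μ : ℝ} (hμ : 0 ≤ μ) (m₀ : ℕ) (h : (m₀ : ℝ) < μ) :
    ∑ m ∈ Finset.range m₀, poi μ m ≤ μ / (μ - m₀) ^ 2 := by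
  have hd : 0 < (μ - m₀) ^ 2 := by
    have : 0 < μ - m₀ := by linarith
    positivity
  rw [le_div_iff₀ hd, Finset.sum_mul]
  refine le_trans ?_ (sum_le_hasSum (Finset.range m₀)
    (fun m _ => mul_nonneg (sq_nonneg _) (poi_nonneg hμ m)) (w_hasSum_var μ))
  refine Finset.sum_le_sum fun m hm => ?_
  rw [mul_comm]
  refine mul_le_mul_of_nonneg_right ?_ (poi_nonneg hμ m)
  rw [Finset.mem_range] at hm
  have h1 : (m : ℝ) ≤ m₀ := by exact_mod_cast hm.le
  nlinarith

/-- Chebyshev, upper tail -/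
theorem w_poi_upper {μ : ℝ} (hμ : 0 ≤ μ) (m₀ : ℕ) (h : μ < m₀) :
    1 - μ / ((m₀ : ℝ) - μ) ^ 2 ≤ ∑ m ∈ Finset.range (m₀ + 1), poi μ m := by
  have hd : 0 < ((m₀ : ℝ) - μ) ^ 2 := by
    have : 0 < (m₀ : ℝ) - μ := by linarith
    positivity
  have h1 : HasSum (fun m => poi μ (m + (m₀ + 1))) (1 - ∑ m ∈ Finset.range (m₀ + 1), poi μ m) := by
    rw [hasSum_nat_add_iff' (m₀ + 1)]
    exact hasSum_poi μ
  have h2 : HasSum (fun m : ℕ => (((m + (m₀ + 1) : ℕ) : ℝ) - μ) ^ 2 * poi μ (m + (m₀ + 1)))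
      (μ - ∑ m ∈ Finset.range (m₀ + 1), ((m : ℝ) - μ) ^ 2 * poi μ m) := by
    have := (hasSum_nat_add_iff' (f := fun m : ℕ => ((m : ℝ) - μ) ^ 2 * poi μ m) (m₀ + 1)).2
      (w_hasSum_var μ)
    exact this
  have h3 := h1.mul_left (((m₀ : ℝ) - μ) ^ 2)
  have h4 := hasSum_le (fun m => ?_) h3 h2
  · have h5 : 0 ≤ ∑ m ∈ Finset.range (m₀ + 1), ((m : ℝ) - μ) ^ 2 * poi μ m :=
      Finset.sum_nonneg fun m _ => mul_nonneg (sq_nonneg _) (poi_nonneg hμ m)
    have h6 : ((m₀ : ℝ) - μ) ^ 2 * (1 - ∑ m ∈ Finset.range (m₀ + 1), poi μ m) ≤ μ := by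
      linarith
    have h7 : 1 - ∑ m ∈ Finset.range (m₀ + 1), poi μ m ≤ μ / ((m₀ : ℝ) - μ) ^ 2 := by
      rw [le_div_iff₀ hd]
      linarith
    linarith
  · refine mul_le_mul_of_nonneg_right ?_ (poi_nonneg hμ _)
    have h8 : (0 : ℝ) ≤ m := Nat.cast_nonneg m
    push_cast
    nlinarith

/-- general form of the comparison below the threshold -/
theorem w_one_sub_Vp_ge (j n : ℕ) {r : ℝ} (hμ : 0 ≤ mu j n r) (m₀ : ℕ) :
    (1 - ∑ m ∈ Finset.range m₀, poi (mu j n r) m) * (1 - satProb (j + 1) n m₀)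
      ≤ 1 - Vp j n r := by
  have h1 := hasSum_Vp j n r
  have h2 := hasSum_poi (mu j n r)
  have h3 := h2.sub h1
  have h4 : HasSum (fun m => (if m < m₀ then 0 else poi (mu j n r) m)
      * (1 - satProb (j + 1) n m₀)) ((1 - ∑ m ∈ Finset.range m₀, poi (mu j n r) m)
      * (1 - satProb (j + 1) n m₀)) := by
    apply HasSum.mul_right
    have h5 : HasSum (fun m => if m < m₀ then poi (mu j n r) m else 0)
        (∑ m ∈ Finset.range m₀, poi (mu j n r) m) := by
      have h6 : HasSum (fun m => if m < m₀ then poi (mu j n r) m else 0)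
          (∑ m ∈ Finset.range m₀, if m < m₀ then poi (mu j n r) m else 0) :=
        hasSum_sum_of_ne_finset_zero
          (fun m hm => if_neg (fun h => hm (Finset.mem_range.mpr h)))
      have h7 : ∑ m ∈ Finset.range m₀, (if m < m₀ then poi (mu j n r) m else 0)
          = ∑ m ∈ Finset.range m₀, poi (mu j n r) m :=
        Finset.sum_congr rfl (fun m hm => if_pos (Finset.mem_range.mp hm))
      rw [h7] at h6
      exact h6
    have h8 := h2.sub h5
    have h9 : (fun m => if m < m₀ then 0 else poi (mu j n r) m)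
        = fun m => poi (mu j n r) m - if m < m₀ then poi (mu j n r) m else 0 := by
      funext m
      split_ifs <;> ring
    rw [h9]
    exact h8
  have h5 : ∀ m, (if m < m₀ then 0 else poi (mu j n r) m) * (1 - satProb (j + 1) n m₀)
      ≤ poi (mu j n r) m - poi (mu j n r) m * satProb (j + 1) n m := by
    intro m
    have hp := poi_nonneg hμ m
    split_ifs with hm
    · rw [zero_mul]
      have := satProb_le_one (j + 1) n m
      nlinarith only [hp, this]
    · have h6 : satProb (j + 1) n m ≤ satProb (j + 1) n m₀ :=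
        satProb_antitone _ _ (not_lt.mp hm)
      nlinarith only [hp, h6]
  exact hasSum_le h5 h4 h3

/-- general form of the comparison above the threshold -/
theorem w_Vp_ge (j n : ℕ) {r : ℝ} (hμ : 0 ≤ mu j n r) (m₀ : ℕ) :
    (∑ m ∈ Finset.range (m₀ + 1), poi (mu j n r) m) * satProb (j + 1) n m₀ ≤ Vp j n r := by
  have h1 := hasSum_Vp j n r
  have h2 : ∑ m ∈ Finset.range (m₀ + 1), poi (mu j n r) m * satProb (j + 1) n m ≤ Vp j n r :=
    sum_le_hasSum _ (fun m _ => mul_nonneg (poi_nonneg hμ m) (satProb_nonneg _ _ _)) h1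
  refine le_trans ?_ h2
  rw [Finset.sum_mul]
  apply Finset.sum_le_sum
  intro m hm
  apply mul_le_mul_of_nonneg_left _ (poi_nonneg hμ m)
  exact satProb_antitone _ _ (Nat.lt_succ_iff.mp (Finset.mem_range.mp hm))

/-- if the mean exceeds `m₀` by `√(2μ)`, the unsatisfiability probabilities are comparable -/
theorem w_below (j n : ℕ) {c : ℝ} (hc : 0 ≤ c) (m₀ : ℕ)
    (h1 : (m₀ : ℝ) < mu j n (rt j n c))
    (h2 : 2 * mu j n (rt j n c) ≤ (mu j n (rt j n c) - m₀) ^ 2) :
    1 - satProb (j + 1) n m₀ ≤ 2 * U j n c := by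
  have hμ : 0 ≤ mu j n (rt j n c) := le_trans (Nat.cast_nonneg m₀) h1.le
  have h3 := w_one_sub_Vp_ge j n hμ m₀
  have h4 := w_poi_lower hμ m₀ h1
  have hd : 0 < (mu j n (rt j n c) - m₀) ^ 2 := by
    have : 0 < mu j n (rt j n c) - m₀ := by linarith
    positivity
  have h5 : mu j n (rt j n c) / (mu j n (rt j n c) - m₀) ^ 2 ≤ 1 / 2 := by
    rw [div_le_div_iff₀ hd (by norm_num)]
    linarith
  have h6 := one_sub_Phi_le_Vp j n (rt_nonneg_bd160 j n hc)
  have h7 := satProb_le_one (j + 1) n m₀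
  have h8 : (1 / 2) * (1 - satProb (j + 1) n m₀)
      ≤ (1 - ∑ m ∈ Finset.range m₀, poi (mu j n (rt j n c)) m) * (1 - satProb (j + 1) n m₀) :=
    mul_le_mul_of_nonneg_right (by linarith) (by linarith)
  unfold U
  linarith

/-- if the mean is below `m₀` by `√(2μ)`, the satisfiability probabilities are comparable -/
theorem w_above (j n : ℕ) (hn : j + 1 ≤ n) {c : ℝ} (hc : 0 ≤ c) (m₀ : ℕ)
    (h1 : mu j n (rt j n c) < m₀)
    (h2 : 2 * mu j n (rt j n c) ≤ ((m₀ : ℝ) - mu j n (rt j n c)) ^ 2) :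
    satProb (j + 1) n m₀ ≤ 2 * (Real.exp (c * ((j + 1) * j)) * (1 - U j n c)) := by
  have hr := rt_nonneg_bd160 j n hc
  have hμ : 0 ≤ mu j n (rt j n c) := by unfold mu; positivity
  have h3 := w_Vp_ge j n hμ m₀
  have h4 := w_poi_upper hμ m₀ h1
  have hd : 0 < ((m₀ : ℝ) - mu j n (rt j n c)) ^ 2 := by
    have : 0 < (m₀ : ℝ) - mu j n (rt j n c) := by linarith
    positivity
  have h5 : mu j n (rt j n c) / ((m₀ : ℝ) - mu j n (rt j n c)) ^ 2 ≤ 1 / 2 := by
    rw [div_le_div_iff₀ hd (by norm_num)]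
    linarith
  have h8 : (1 / 2) * satProb (j + 1) n m₀
      ≤ (∑ m ∈ Finset.range (m₀ + 1), poi (mu j n (rt j n c)) m) * satProb (j + 1) n m₀ :=
    mul_le_mul_of_nonneg_right (by linarith) (satProb_nonneg _ _ _)
  have h5' := Vp_le j n hr
  have h6 := rt_improper_le j n hn hc
  have h7 : Vp j n (rt j n c) ≤ Real.exp (c * ((j + 1) * j)) * (1 - U j n c) := by
    have h8 : Vp j n (rt j n c) = Real.exp (rt j n c * improper j n)
        * (Real.exp (-(rt j n c * improper j n)) * Vp j n (rt j n c)) := by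
      rw [← mul_assoc, ← Real.exp_add, add_neg_cancel, Real.exp_zero, one_mul]
    rw [h8]
    have h9 : 0 ≤ Real.exp (-(rt j n c * improper j n)) * Vp j n (rt j n c) := by
      apply mul_nonneg (Real.exp_pos _).le
      unfold Vp
      exact Ex_nonneg (rate_nonneg hr le_rfl) (fun S => ind_nonneg _)
    apply mul_le_mul (Real.exp_le_exp.mpr h6) h5' h9 (Real.exp_pos _).le
  linarith

end Vale.Agent.P170
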