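import Vale.Agent.P170.H243.Main

/-!
# Rates away from the threshold
-/

namespace Vale.Agent.P170

open Finset Filter Topology

theorem w_floor_ge (c : ℝ) (n : ℕ) : c * n - 1 ≤ (⌊c * n⌋₊ : ℝ) := by
  have := Nat.lt_floor_add_one (c * (n : ℝ))
  linarith

/-- below the threshold -/
theorem w_rate_below {k : ℕ} (hk : 1 ≤ k) {α A : ℝ} (hthr : IsLimitingThreshold k α)
    (hw : ∀ n m m' : ℕ, k ≤ n → m ≤ m' →
      ((m' : ℝ) - m) * ((1 - satProb k n m) * satProb k n m') ≤ A * Real.sqrt n)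
    {c : ℝ} (hc0 : 0 ≤ c) (hc : c < α) :
    ∃ B : ℝ, ∀ n : ℕ, k ≤ n → (1 - satProb k n ⌊c * n⌋₊) * Real.sqrt n ≤ B := by
  obtain ⟨d, hd⟩ : ∃ d : ℝ, d = (c + α) / 2 := ⟨_, rfl⟩
  have hcd : c < d := by rw [hd]; linarith
  have hdα : d < α := by rw [hd]; linarith
  have hlim := hthr.2.1 d (hc0.trans hcd.le) hdα
  have hev : ∀ᶠ n : ℕ in atTop, 1 / 2 ≤ satProb k n ⌊d * n⌋₊ :=
    (hlim.eventually (lt_mem_nhds (show (1 / 2 : ℝ) < 1 by norm_num))).mono fun n hn => hn.le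
  obtain ⟨N, hN⟩ := eventually_atTop.1 hev
  obtain ⟨N', hN'⟩ := exists_nat_ge (2 / (d - c))
  refine ⟨max (4 * A / (d - c)) (Real.sqrt ((max N N' : ℕ) : ℝ)), ?_⟩
  intro n hn
  have hdc : 0 < d - c := by linarith
  have hn0 : (0 : ℝ) < n := by exact_mod_cast (by omega : 0 < n)
  have hr : 0 < Real.sqrt n := Real.sqrt_pos.mpr hn0
  have hrr : Real.sqrt n * Real.sqrt n = n := Real.mul_self_sqrt hn0.le
  have hP0 := satProb_nonneg k n ⌊c * n⌋₊
  have hP1 := satProb_le_one k n ⌊c * n⌋₊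
  rcases lt_or_ge n (max N N') with hlt | hge
  · refine le_trans ?_ (le_max_right _ _)
    have h1 : Real.sqrt n ≤ Real.sqrt ((max N N' : ℕ) : ℝ) :=
      Real.sqrt_le_sqrt (by exact_mod_cast hlt.le)
    nlinarith
  · refine le_trans ?_ (le_max_left _ _)
    have hnN : N ≤ n := le_trans (le_max_left _ _) hge
    have hnN' : N' ≤ n := le_trans (le_max_right _ _) hge
    have h1 := hN n hnN
    have hmm : ⌊c * n⌋₊ ≤ ⌊d * n⌋₊ := Nat.floor_le_floor (by nlinarith)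
    have h2 := hw n _ _ hn hmm
    have h3 : (2 : ℝ) ≤ (d - c) * n := by
      have h4 : 2 / (d - c) ≤ n := hN'.trans (by exact_mod_cast hnN')
      rw [div_le_iff₀ hdc] at h4
      linarith
    have h4 : (d - c) * n / 2 ≤ (⌊d * n⌋₊ : ℝ) - ⌊c * n⌋₊ := by
      have h5 := w_floor_ge d n
      have h6 : (⌊c * n⌋₊ : ℝ) ≤ c * n := Nat.floor_le (by positivity)
      linarith
    rw [le_div_iff₀ hdc]
    have h5 : (d - c) * n / 2 * ((1 - satProb k n ⌊c * n⌋₊) * (1 / 2)) ≤ A * Real.sqrt n := by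
      refine le_trans ?_ h2
      refine mul_le_mul h4 ?_ (by nlinarith) (by linarith)
      exact mul_le_mul_of_nonneg_left h1 (by linarith)
    have h6 : ((1 - satProb k n ⌊c * n⌋₊) * Real.sqrt n * (d - c)) * Real.sqrt n
        ≤ (4 * A) * Real.sqrt n := by
      calc ((1 - satProb k n ⌊c * n⌋₊) * Real.sqrt n * (d - c)) * Real.sqrt n
          = 4 * ((d - c) * (Real.sqrt n * Real.sqrt n) / 2
              * ((1 - satProb k n ⌊c * n⌋₊) * (1 / 2))) := by ring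
        _ = 4 * ((d - c) * n / 2 * ((1 - satProb k n ⌊c * n⌋₊) * (1 / 2))) := by rw [hrr]
        _ ≤ 4 * (A * Real.sqrt n) := by linarith
        _ = _ := by ring
    exact le_of_mul_le_mul_right h6 hr

/-- above the threshold -/
theorem w_rate_above {k : ℕ} (hk : 1 ≤ k) {α A : ℝ}
    (hw : ∀ n m : ℕ, k ≤ n → ((m : ℝ) - α * n) * satProb k n m ≤ A * Real.sqrt n)
    {c : ℝ} (hc : α < c) :
    ∃ B : ℝ, ∀ n : ℕ, k ≤ n → satProb k n ⌊c * n⌋₊ * Real.sqrt n ≤ B := by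
  obtain ⟨N, hN⟩ := exists_nat_ge (2 / (c - α))
  refine ⟨max (2 * A / (c - α)) (Real.sqrt (N : ℝ)), ?_⟩
  intro n hn
  have hdc : 0 < c - α := by linarith
  have hn0 : (0 : ℝ) < n := by exact_mod_cast (by omega : 0 < n)
  have hr : 0 < Real.sqrt n := Real.sqrt_pos.mpr hn0
  have hrr : Real.sqrt n * Real.sqrt n = n := Real.mul_self_sqrt hn0.le
  have hP0 := satProb_nonneg k n ⌊c * n⌋₊
  have hP1 := satProb_le_one k n ⌊c * n⌋₊
  rcases lt_or_ge n N with hlt | hge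
  · refine le_trans ?_ (le_max_right _ _)
    have h1 : Real.sqrt n ≤ Real.sqrt (N : ℝ) := Real.sqrt_le_sqrt (by exact_mod_cast hlt.le)
    nlinarith
  · refine le_trans ?_ (le_max_left _ _)
    have h2 := hw n ⌊c * n⌋₊ hn
    have h3 : (2 : ℝ) ≤ (c - α) * n := by
      have h4 : 2 / (c - α) ≤ n := hN.trans (by exact_mod_cast hge)
      rw [div_le_iff₀ hdc] at h4
      linarith
    have h4 : (c - α) * n / 2 ≤ (⌊c * n⌋₊ : ℝ) - α * n := by
      have h5 := w_floor_ge c n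
      linarith
    rw [le_div_iff₀ hdc]
    have h5 : (c - α) * n / 2 * satProb k n ⌊c * n⌋₊ ≤ A * Real.sqrt n :=
      le_trans (mul_le_mul_of_nonneg_right h4 hP0) h2
    have h6 : (satProb k n ⌊c * n⌋₊ * Real.sqrt n * (c - α)) * Real.sqrt n
        ≤ (2 * A) * Real.sqrt n := by
      calc (satProb k n ⌊c * n⌋₊ * Real.sqrt n * (c - α)) * Real.sqrt n
          = 2 * ((c - α) * (Real.sqrt n * Real.sqrt n) / 2 * satProb k n ⌊c * n⌋₊) := by ring
        _ = 2 * ((c - α) * n / 2 * satProb k n ⌊c * n⌋₊) := by rw [hrr]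
        _ ≤ 2 * (A * Real.sqrt n) := by linarith
        _ = _ := by ring
    exact le_of_mul_le_mul_right h6 hr

end Vale.Agent.P170
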