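import Vale.Agent.P170.H243.Poi

/-!
# The scaling window of random `k`-SAT has `O(√n)` clauses, `k ≥ 3`
-/

namespace Vale.Agent.P170

open Finset Filter Topology

/-! ### First moment bound for a fixed number of clauses -/

/-- the assignment `a` satisfies the clause `C` -/
def WSat {k n : ℕ} (a : Fin n → Bool) (C : PClause k n) : Prop := ∃ l ∈ C.1, a l.1 = l.2

open Classical in
theorem w_card_sat_le (k n : ℕ) (a : Fin n → Bool) :
    Fintype.card {C : PClause k n // WSat a C} + n.choose k ≤ Fintype.card (PClause k n) := by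
  have h1 : Fintype.card {s : Finset (Fin n) // s.card = k}
      ≤ Fintype.card {C : PClause k n // ¬ WSat a C} := by
    refine Fintype.card_le_of_injective
      (fun s => ⟨⟨s.1.image (fun v => (v, !(a v))), ?_, ?_⟩, ?_⟩) ?_
    · rw [card_image_of_injective _ (fun x y h => congrArg Prod.fst h), s.2]
    · rw [image_image]
      have : (Prod.fst ∘ fun v : Fin n => (v, !(a v))) = (id : Fin n → Fin n) := rfl
      rw [this, image_id, s.2]
    · rintro ⟨l, hl, hal⟩
      obtain ⟨v, _, rfl⟩ := mem_image.1 hl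
      simp at hal
    · intro s t hst
      have h2 : s.1.image (fun v => (v, !(a v))) = t.1.image (fun v => (v, !(a v))) :=
        congrArg (fun z => z.1.1) hst
      have h3 := congrArg (fun u : Finset (Fin n × Bool) => u.image Prod.fst) h2
      simp only [image_image] at h3
      have : (Prod.fst ∘ fun v : Fin n => (v, !(a v))) = (id : Fin n → Fin n) := rfl
      rw [this, image_id, image_id] at h3
      exact Subtype.ext h3
  rw [Fintype.card_finset_len, Fintype.card_fin] at h1
  have h2 : Fintype.card {C : PClause k n // ¬ WSat a C}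
      = Fintype.card (PClause k n) - Fintype.card {C : PClause k n // WSat a C} :=
    Fintype.card_subtype_compl _
  have h3 : Fintype.card {C : PClause k n // WSat a C} ≤ Fintype.card (PClause k n) :=
    Fintype.card_subtype_le _
  omega

open Classical in
theorem w_card_Satisfiable_le (k n m : ℕ) :
    Fintype.card {F : Fin m → PClause k n // Satisfiable F}
      ≤ ∑ a : Fin n → Bool, (Fintype.card {C : PClause k n // WSat a C}) ^ m := by
  have h1 : Fintype.card {F : Fin m → PClause k n // Satisfiable F}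
      ≤ Fintype.card (Σ a : Fin n → Bool, (Fin m → {C : PClause k n // WSat a C})) := by
    let g : (Σ a : Fin n → Bool, (Fin m → {C : PClause k n // WSat a C})) →
        (Fin m → PClause k n) := fun z i => (z.2 i).1
    let f : {F : Fin m → PClause k n // Satisfiable F} →
        (Σ a : Fin n → Bool, (Fin m → {C : PClause k n // WSat a C})) :=
      fun F => ⟨F.2.choose, fun i => ⟨F.1 i, F.2.choose_spec i⟩⟩
    refine Fintype.card_le_of_injective f ?_
    refine Function.Injective.of_comp (f := g) ?_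
    intro F G h
    exact Subtype.ext h
  refine h1.trans (le_of_eq ?_)
  rw [Fintype.card_sigma]
  refine sum_congr rfl fun a _ => ?_
  rw [Fintype.card_fun, Fintype.card_fin]

theorem w_card_PClause (j n : ℕ) :
    Fintype.card (PClause (j + 1) n) = 2 ^ (j + 1) * n.choose (j + 1) := by
  have h1 := card_PClause_mul j n
  have h2 := Nat.descFactorial_eq_factorial_mul_choose n (j + 1)
  rw [h2] at h1
  have h3 : 0 < (j + 1).factorial := Nat.factorial_pos _
  have h4 : Fintype.card (PClause (j + 1) n) * (j + 1).factorial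
      = (2 ^ (j + 1) * n.choose (j + 1)) * (j + 1).factorial := by
    rw [h1]; ring
  exact Nat.eq_of_mul_eq_mul_right h3 h4

/-- the first moment bound -/
theorem w_first_moment (j n m : ℕ) (hn : j + 1 ≤ n) :
    satProb (j + 1) n m ≤ 2 ^ n * (1 - 1 / 2 ^ (j + 1)) ^ m := by
  classical
  have hc : 0 < n.choose (j + 1) := Nat.choose_pos hn
  have hcr : (0 : ℝ) < n.choose (j + 1) := by exact_mod_cast hc
  have hN := w_card_PClause j n
  have hNr : (Fintype.card (PClause (j + 1) n) : ℝ) = 2 ^ (j + 1) * n.choose (j + 1) := by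
    exact_mod_cast hN
  have hNpos : (0 : ℝ) < Fintype.card (PClause (j + 1) n) := by
    rw [hNr]; positivity
  have htot : (Fintype.card (Fin m → PClause (j + 1) n) : ℝ)
      = (Fintype.card (PClause (j + 1) n) : ℝ) ^ m := by
    rw [Fintype.card_fun, Fintype.card_fin]
    push_cast
    rfl
  have h1 : (Fintype.card {F : Fin m → PClause (j + 1) n // Satisfiable F} : ℝ)
      ≤ ∑ a : Fin n → Bool, ((Fintype.card {C : PClause (j + 1) n // WSat a C} : ℕ) : ℝ) ^ m := by
    have := w_card_Satisfiable_le (j + 1) n m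
    exact_mod_cast this
  have h2 : ∀ a : Fin n → Bool, ((Fintype.card {C : PClause (j + 1) n // WSat a C} : ℕ) : ℝ) ^ m
      ≤ ((1 - 1 / 2 ^ (j + 1)) * (Fintype.card (PClause (j + 1) n) : ℝ)) ^ m := by
    intro a
    refine pow_le_pow_left₀ (Nat.cast_nonneg _) ?_ m
    have h3 := w_card_sat_le (j + 1) n a
    have h4 : ((Fintype.card {C : PClause (j + 1) n // WSat a C} : ℕ) : ℝ) + n.choose (j + 1)
        ≤ (Fintype.card (PClause (j + 1) n) : ℝ) := by exact_mod_cast h3
    have h5 : (1 - 1 / 2 ^ (j + 1)) * (Fintype.card (PClause (j + 1) n) : ℝ)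
        = (Fintype.card (PClause (j + 1) n) : ℝ) - n.choose (j + 1) := by
      rw [hNr]
      have : (2 : ℝ) ^ (j + 1) ≠ 0 := by positivity
      field_simp
    rw [h5]
    linarith
  have h3 : ∑ a : Fin n → Bool, ((Fintype.card {C : PClause (j + 1) n // WSat a C} : ℕ) : ℝ) ^ m
      ≤ 2 ^ n * ((1 - 1 / 2 ^ (j + 1)) * (Fintype.card (PClause (j + 1) n) : ℝ)) ^ m := by
    refine (sum_le_sum fun a _ => h2 a).trans (le_of_eq ?_)
    rw [sum_const, card_univ, Fintype.card_fun, Fintype.card_bool, Fintype.card_fin, nsmul_eq_mul]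
    push_cast
    ring
  unfold satProb
  rw [htot, div_le_iff₀ (by positivity)]
  refine (h1.trans h3).trans (le_of_eq ?_)
  rw [mul_pow]
  ring

/-- far above the threshold: `m P(m)` is bounded -/
theorem w_far (j n m : ℕ) (hn : j + 1 ≤ n) (hm : (2 : ℝ) ^ (j + 2) * n < m) :
    (m : ℝ) * satProb (j + 1) n m ≤ 2 ^ (j + 2) := by
  have hp : (0 : ℝ) < 2 ^ (j + 1) := by positivity
  have h1 := w_first_moment j n m hn
  have h2 : (1 - 1 / 2 ^ (j + 1) : ℝ) ^ m ≤ Real.exp (-(m / 2 ^ (j + 1))) := by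
    have h3 : (1 - 1 / 2 ^ (j + 1) : ℝ) ≤ Real.exp (-(1 / 2 ^ (j + 1))) := by
      have := Real.add_one_le_exp (-(1 / 2 ^ (j + 1) : ℝ))
      linarith
    have h4 : (0 : ℝ) ≤ 1 - 1 / 2 ^ (j + 1) := by
      have : (1 : ℝ) / 2 ^ (j + 1) ≤ 1 := by
        rw [div_le_one hp]
        exact one_le_pow₀ (by norm_num)
      linarith
    calc (1 - 1 / 2 ^ (j + 1) : ℝ) ^ m ≤ (Real.exp (-(1 / 2 ^ (j + 1)))) ^ m :=
          pow_le_pow_left₀ h4 h3 m
      _ = Real.exp (-(m / 2 ^ (j + 1))) := by
          rw [← Real.exp_nat_mul]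
          congr 1
          ring
  have h3 : (2 : ℝ) ^ n ≤ Real.exp (m / 2 ^ (j + 2)) := by
    have h4 : (2 : ℝ) ≤ Real.exp 1 := by
      have := Real.add_one_le_exp (1 : ℝ)
      linarith
    calc (2 : ℝ) ^ n ≤ (Real.exp 1) ^ n := pow_le_pow_left₀ (by norm_num) h4 n
      _ = Real.exp n := by rw [← Real.exp_nat_mul, mul_one]
      _ ≤ Real.exp (m / 2 ^ (j + 2)) := by
          apply Real.exp_le_exp.2
          rw [le_div_iff₀ (by positivity)]
          linarith
  have h4 : satProb (j + 1) n m ≤ Real.exp (-(m / 2 ^ (j + 2))) := by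
    refine h1.trans ?_
    calc (2 : ℝ) ^ n * (1 - 1 / 2 ^ (j + 1)) ^ m
        ≤ Real.exp (m / 2 ^ (j + 2)) * Real.exp (-(m / 2 ^ (j + 1))) :=
          mul_le_mul h3 h2 (by
            have : (0 : ℝ) ≤ 1 - 1 / 2 ^ (j + 1) := by
              have : (1 : ℝ) / 2 ^ (j + 1) ≤ 1 := by
                rw [div_le_one hp]
                exact one_le_pow₀ (by norm_num)
              linarith
            positivity) (Real.exp_pos _).le
      _ = Real.exp (-(m / 2 ^ (j + 2))) := by
          rw [← Real.exp_add]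
          congr 1
          rw [pow_succ (2 : ℝ) (j + 1)]
          field_simp
          ring
  have h5 : (m : ℝ) / 2 ^ (j + 2) * Real.exp (-(m / 2 ^ (j + 2))) ≤ 1 := by
    have h6 := Real.add_one_le_exp ((m : ℝ) / 2 ^ (j + 2))
    rw [Real.exp_neg, ← div_eq_mul_inv, div_le_one (Real.exp_pos _)]
    linarith
  have h7 : (m : ℝ) * satProb (j + 1) n m ≤ m * Real.exp (-(m / 2 ^ (j + 2))) :=
    mul_le_mul_of_nonneg_left h4 (Nat.cast_nonneg _)
  refine h7.trans ?_
  have h8 : (m : ℝ) * Real.exp (-(m / 2 ^ (j + 2)))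
      = 2 ^ (j + 2) * ((m : ℝ) / 2 ^ (j + 2) * Real.exp (-(m / 2 ^ (j + 2)))) := by
    have : (2 : ℝ) ^ (j + 2) ≠ 0 := by positivity
    field_simp
  rw [h8]
  have h9 : (0 : ℝ) < 2 ^ (j + 2) := by positivity
  nlinarith

/-! ### The one-sided rate in the rate model -/

/-- every point where `U n` is not close to one is at most `α + O(1/√n)` -/
theorem w_onesided (U : ℕ → ℝ → ℝ) (C₀ A : ℝ) (hA : 0 < A)
    (hU0 : ∀ n c, 0 ≤ c → 0 ≤ U n c) (hU1 : ∀ n c, 0 ≤ c → U n c ≤ 1)
    (hmono : ∀ n a b, 0 ≤ a → a ≤ b → U n a ≤ U n b)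
    (H1 : ∀ n₁ n₂ c, 1 ≤ n₁ → 1 ≤ n₂ → 0 ≤ c → (1 - U n₁ c) * (1 - U n₂ c) ≤ 1 - U (n₁ + n₂) c)
    (H2 : ∀ n : ℕ, 1 ≤ n → ∀ a b : ℝ, 0 ≤ a → a < b → b ≤ C₀ →
      (b - a) * U n a * (1 - U n b) ≤ A / Real.sqrt n)
    {α : ℝ} (hα : 0 ≤ α) (hhigh : ∀ c, α < c → Tendsto (fun n => U n c) atTop (𝓝 1))
    {n : ℕ} (hn : 1 ≤ n) {b : ℝ} (hb0 : 0 ≤ b) (hb : b ≤ C₀) :
    (b - α) * (1 - U n b) * Real.sqrt n ≤ 42 * A := by
  have hs : 0 < Real.sqrt n := Real.sqrt_pos.mpr (by exact_mod_cast hn)
  set v : ℝ := 1 - U n b with hv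
  have hv0 : 0 ≤ v := by rw [hv]; linarith [hU1 n b hb0]
  have hv1 : v ≤ 1 := by rw [hv]; linarith [hU0 n b hb0]
  rcases hv0.eq_or_lt with h0 | hvpos
  · rw [← h0]; simp; positivity
  rcases le_or_gt b α with hbα | hbα
  · have : (b - α) * v * Real.sqrt n ≤ 0 :=
      mul_nonpos_of_nonpos_of_nonneg (mul_nonpos_of_nonpos_of_nonneg (by linarith) hv0) hs.le
    linarith
  by_contra hcon
  push Not at hcon
  set w : ℝ := 4 * A / (v * Real.sqrt n) with hw
  set u : ℝ := 38 * A / Real.sqrt n with hu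
  have hwpos : 0 < w := by rw [hw]; positivity
  have hupos : 0 < u := by rw [hu]; positivity
  have hsum : w + u < b - α := by
    have h1 : w + u ≤ 42 * A / (v * Real.sqrt n) := by
      rw [hw, hu]
      have h2 : 38 * A / Real.sqrt n ≤ 38 * A / (v * Real.sqrt n) := by
        apply div_le_div_of_nonneg_left (by positivity) (by positivity)
        nlinarith
      have h3 : 4 * A / (v * Real.sqrt n) + 38 * A / (v * Real.sqrt n)
          = 42 * A / (v * Real.sqrt n) := by ring
      linarith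
    have h2 : 42 * A / (v * Real.sqrt n) < b - α := by
      rw [div_lt_iff₀ (by positivity)]
      linarith
    linarith
  set x : ℝ := b - w - u with hx
  have hxα : α < x := by rw [hx]; linarith
  have hx0 : 0 ≤ x := by linarith
  have hquart : U n (x + 38 * A / Real.sqrt n) ≤ 1 / 4 := by
    have h1 : x + 38 * A / Real.sqrt n = b - w := by rw [hx, hu]; ring
    rw [h1]
    have h2 := window_use U C₀ A hU0 H2 hn (a := b - w) (b := b) (v := v)
      (by linarith) (by linarith) hb hvpos (by rw [hv])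
    refine h2.trans (le_of_eq ?_)
    have h3 : b - (b - w) = w := by ring
    rw [h3, hw]
    field_simp
  have hdy := dyadic_quarter U C₀ A hA hU0 H1 H2 hn hx0 (by
    have h1 : x + 38 * A / Real.sqrt n = b - w := by rw [hx, hu]; ring
    rw [h1]; linarith) hquart
  have hle : ∀ i : ℕ, U (2 ^ i * n) x ≤ 1 / 4 := by
    intro i
    refine (hmono _ x _ hx0 ?_).trans (hdy i)
    have : 0 ≤ 38 * A / Real.sqrt ((2 ^ i * n : ℕ) : ℝ) := by positivity
    linarith
  have hlim := hhigh x hxα
  have hsub : Tendsto (fun i : ℕ => 2 ^ i * n) atTop atTop := by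
    apply tendsto_atTop_mono (f := fun i : ℕ => i)
    · intro i
      calc i ≤ 2 ^ i := Nat.lt_two_pow_self.le
        _ ≤ 2 ^ i * n := Nat.le_mul_of_pos_right _ hn
    · exact tendsto_id
  have h1 := le_of_tendsto (hlim.comp hsub) (Eventually.of_forall hle)
  norm_num at h1

end Vale.Agent.P170
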